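import Vale.Agent.P038.H701.Star

/-!
# Inner and outer pairs of families
-/

namespace Vale.Agent.P038.H701

open Finset

variable {V : Type*} [Fintype V] [DecidableEq V]

/-- Outer pairs. -/
structure Outer (N : V → Finset V) (B C : V → Finset V) : Prop where
  l : ∀ a, N a ⊆ B a
  r : ∀ a, N a ⊆ C a
  o : ∀ a b, b ∈ B a → a ∈ C b → a = b

/-- Inner pairs. -/
structure Inner (N : V → Finset V) (X Y : V → Finset V) : Prop where
  l : ∀ a, a ∈ X a
  r : ∀ a, a ∈ Y a
  o : ∀ a b, b ∈ cl N (X a) → a ∈ cl N (Y b) → a = b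

/-- The cost. -/
def cost (N : V → Finset V) (X Y : V → Finset V) : ℤ := ∑ a, (cc N (X a) + cc N (Y a))

theorem subset_cl {N : V → Finset V} (hN : ∀ a, a ∈ N a) (S : Finset V) : S ⊆ cl N S :=
  fun x hx => mem_cl.2 ⟨x, hx, hN x⟩

theorem cl_mono {N : V → Finset V} {S T : Finset V} (h : S ⊆ T) : cl N S ⊆ cl N T := by
  intro x hx
  obtain ⟨y, hy, h'⟩ := mem_cl.1 hx
  exact mem_cl.2 ⟨y, h hy, h'⟩

/-- The shift of an inner pair is an outer pair. -/
theorem Inner.shift {N : V → Finset V} {X Y : V → Finset V} (h : Inner N X Y) :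
    Outer N (fun a => cl N (X a)) (fun a => cl N (Y a)) where
  l a x hx := mem_cl.2 ⟨a, h.l a, hx⟩
  r a x hx := mem_cl.2 ⟨a, h.r a, hx⟩
  o := h.o

/-- The largest sets compatible with `C`. -/
def UU (C : V → Finset V) (a : V) : Finset V := univ.filter fun y => a ∈ C y → a = y

theorem mem_UU {C : V → Finset V} {a y : V} : y ∈ UU C a ↔ (a ∈ C y → a = y) := by
  simp [UU]

theorem Outer.sub {N : V → Finset V} {B C : V → Finset V} (h : Outer N B C) (a : V) :
    B a ⊆ UU C a := fun y hy => mem_UU.2 fun h' => h.o a y hy h'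

/-- Key combinatorial fact about `UU`. -/
theorem Outer.key {N : V → Finset V} (hN : ∀ a, a ∈ N a) {B C : V → Finset V}
    (h : Outer N B C) {a b : V} (hb : b ∈ cl N (mm N (UU C) a)) (ha : a ∈ cl N (mm N C b)) :
    a = b := by
  obtain ⟨x, hx, hxb⟩ := mem_cl.1 hb
  obtain ⟨y, hy, hya⟩ := mem_cl.1 ha
  have h1 : x ∈ UU C y := mem_mm.1 hx y hya
  have h2 : y ∈ C x := mem_mm.1 hy x hxb
  have h3 : y = x := mem_UU.1 h1 h2
  subst h3
  have h4 : a = y := mem_UU.1 (mem_mm.1 hx a (hN a)) (h.r y hya)
  have h5 : y = b := h.o y b (h.l y hxb) (mem_mm.1 hy b (hN b))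
  exact h4.trans h5

/-- The candidate is an inner pair. -/
theorem Outer.inner {N : V → Finset V} (hN : ∀ a, a ∈ N a) {B C : V → Finset V}
    (h : Outer N B C) : Inner N (mm N B) (mm N C) where
  l a := mem_mm.2 fun s hs => h.l s hs
  r a := mem_mm.2 fun s hs => h.r s hs
  o a b hb ha := h.key hN (cl_mono (fun x hx => mem_mm.2 fun s hs =>
    h.sub s (mem_mm.1 hx s hs)) hb) ha

theorem card_sum (S : Finset V) : (S.card : ℤ) = ∑ a, if a ∈ S then (1 : ℤ) else 0 := by
  simp

theorem two_sums (R S : V → Finset V) :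
    (∑ a, ((R a).card : ℤ)) + ∑ b, ((S b).card : ℤ) =
      ∑ a, ∑ b, ((if b ∈ R a then (1 : ℤ) else 0) + if a ∈ S b then (1 : ℤ) else 0) := by
  simp only [card_sum, Finset.sum_add_distrib]
  congr 1
  exact Finset.sum_comm

theorem total : ∑ a : V, ∑ b : V, ((1 : ℤ) + if a = b then (1 : ℤ) else 0) =
    (Fintype.card V : ℤ) * Fintype.card V + Fintype.card V := by
  simp only [Finset.sum_add_distrib, Finset.sum_const, Finset.card_univ, nsmul_eq_mul,
    Finset.sum_ite_eq, Finset.mem_univ, if_true, mul_one]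

/-- Double counting: rows of `R` and columns of `S` which overlap only on the diagonal. -/
theorem count_le (R S : V → Finset V) (h : ∀ a b, b ∈ R a → a ∈ S b → a = b) :
    (∑ a, ((R a).card : ℤ)) + ∑ b, ((S b).card : ℤ) ≤
      (Fintype.card V : ℤ) * Fintype.card V + Fintype.card V := by
  rw [two_sums, ← total]
  refine Finset.sum_le_sum fun a _ => Finset.sum_le_sum fun b _ => ?_
  by_cases h1 : b ∈ R a
  · by_cases h2 : a ∈ S b
    · rw [if_pos h1, if_pos h2, if_pos (h a b h1 h2)]
    · rw [if_pos h1, if_neg h2]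
      split_ifs <;> norm_num
  · rw [if_neg h1]
    split_ifs <;> norm_num

theorem le_count (R S : V → Finset V) (h : ∀ a b, b ∉ R a → a ∈ S b)
    (h1 : ∀ a, a ∈ R a) (h2 : ∀ a, a ∈ S a) :
    (Fintype.card V : ℤ) * Fintype.card V + Fintype.card V ≤
      (∑ a, ((R a).card : ℤ)) + ∑ b, ((S b).card : ℤ) := by
  rw [two_sums, ← total]
  refine Finset.sum_le_sum fun a _ => Finset.sum_le_sum fun b _ => ?_
  by_cases h3 : a = b
  · subst h3
    simp [h1, h2]
  · by_cases h4 : b ∈ R a
    · by_cases h5 : a ∈ S b <;> simp [h3, h4, h5]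
    · have h5 := h a b h4
      simp [h3, h4, h5]

theorem cost_eq (N : V → Finset V) (X Y : V → Finset V) :
    cost N X Y = (∑ a, cc N (X a)) + ((∑ a, ((cl N (Y a)).card : ℤ)) - ∑ a, ((Y a).card : ℤ)) := by
  unfold cost
  rw [Finset.sum_add_distrib, ← Finset.sum_sub_distrib]
  rfl

/-- An optimal outer pair gives an inner pair of no larger cost. -/
theorem shift_le {N : V → Finset V} (hN : ∀ a, a ∈ N a) {B C : V → Finset V}
    (h : Outer N B C) (hmin : ∀ B' C', Outer N B' C' → cost N B C ≤ cost N B' C') :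
    cost N (mm N B) (mm N C) ≤ cost N B C := by
  classical
  -- row optimality
  have hR : ∀ a Y, B a ⊆ Y → Y ⊆ UU C a → cc N (B a) ≤ cc N Y := by
    intro a Y h1 h2
    have h3 : Outer N (Function.update B a Y) C := by
      refine ⟨?_, h.r, ?_⟩
      · intro s
        by_cases hs : s = a
        · subst hs
          simpa using (h.l s).trans h1
        · simpa [Function.update_of_ne hs] using h.l s
      · intro s b hb hs
        by_cases hsa : s = a
        · subst hsa
          rw [Function.update_self] at hb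
          exact mem_UU.1 (h2 hb) hs
        · rw [Function.update_of_ne hsa] at hb
          exact h.o s b hb hs
    have h4 := hmin _ _ h3
    rw [cost_eq, cost_eq] at h4
    have h5 : ∑ s, cc N (Function.update B a Y s) = ∑ s, cc N (B s) + (cc N Y - cc N (B a)) := by
      rw [← Finset.add_sum_erase _ _ (Finset.mem_univ a),
        ← Finset.add_sum_erase (s := univ) (f := fun s => cc N (B s)) (Finset.mem_univ a)]
      rw [Function.update_self]
      rw [Finset.sum_congr rfl fun s hs => by
        rw [Function.update_of_ne (Finset.ne_of_mem_erase hs)]]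
      ring
    linarith
  -- column optimality
  have hC : ∀ b (S : Finset V), (∀ a ∈ S, b ∈ UU C a ∧ b ∉ B a) →
      S.card ≤ (univ.filter fun z => b ∈ mm N (UU C) z ∧ ∃ a ∈ S, z ∈ N a).card := by
    intro b S hS
    have hSC : Disjoint S (C b) := by
      rw [Finset.disjoint_left]
      intro a ha hab
      have h1 := mem_UU.1 (hS a ha).1 hab
      subst h1
      exact (hS a ha).2 (h.l a (hN a))
    have h3 : Outer N B (Function.update C b (C b ∪ S)) := by
      refine ⟨h.l, ?_, ?_⟩
      · intro s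
        by_cases hs : s = b
        · subst hs
          simpa using (h.r s).trans Finset.subset_union_left
        · simpa [Function.update_of_ne hs] using h.r s
      · intro a x hx ha
        by_cases hxb : x = b
        · subst hxb
          rw [Function.update_self] at ha
          rcases Finset.mem_union.1 ha with h1 | h1
          · exact h.o a x hx h1
          · exact absurd hx (hS a h1).2
        · rw [Function.update_of_ne hxb] at ha
          exact h.o a x hx ha
    have h4 := hmin _ _ h3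
    unfold cost at h4
    rw [Finset.sum_add_distrib, Finset.sum_add_distrib] at h4
    have h5 : ∑ s, cc N (Function.update C b (C b ∪ S) s) =
        ∑ s, cc N (C s) + (cc N (C b ∪ S) - cc N (C b)) := by
      rw [← Finset.add_sum_erase _ _ (Finset.mem_univ b),
        ← Finset.add_sum_erase (s := univ) (f := fun s => cc N (C s)) (Finset.mem_univ b)]
      rw [Function.update_self]
      rw [Finset.sum_congr rfl fun s hs => by
        rw [Function.update_of_ne (Finset.ne_of_mem_erase hs)]]
      ring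
    rw [h5] at h4
    have h6 : cc N (C b) ≤ cc N (C b ∪ S) := by linarith
    unfold cc at h6
    rw [Finset.card_union_of_disjoint hSC.symm] at h6
    have h7 : (cl N (C b ∪ S)).card ≤ (cl N (C b)).card +
        (univ.filter fun z => b ∈ mm N (UU C) z ∧ ∃ a ∈ S, z ∈ N a).card := by
      refine le_trans (Finset.card_le_card ?_) (Finset.card_union_le _ _)
      intro z hz
      by_cases hzC : z ∈ cl N (C b)
      · exact Finset.mem_union_left _ hzC
      · refine Finset.mem_union_right _ (Finset.mem_filter.2 ⟨Finset.mem_univ _, ?_, ?_⟩)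
        · refine mem_mm.2 fun a ha => mem_UU.2 fun hab => ?_
          exact absurd (mem_cl.2 ⟨a, hab, ha⟩) hzC
        · obtain ⟨a, ha, haz⟩ := mem_cl.1 hz
          rcases Finset.mem_union.1 ha with h8 | h8
          · exact absurd (mem_cl.2 ⟨a, h8, haz⟩) hzC
          · exact ⟨a, h8, haz⟩
    push_cast at h6
    have h8 : ((cl N (C b ∪ S)).card : ℤ) ≤ (cl N (C b)).card +
        ((univ.filter fun z => b ∈ mm N (UU C) z ∧ ∃ a ∈ S, z ∈ N a).card : ℤ) := by
      exact_mod_cast h7
    have h9 : (S.card : ℤ) ≤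
        ((univ.filter fun z => b ∈ mm N (UU C) z ∧ ∃ a ∈ S, z ∈ N a).card : ℤ) := by
      linarith
    exact_mod_cast h9
  have hst := star N B (UU C) h.sub hR hC
  -- the four counts
  have c1 : (Fintype.card V : ℤ) * Fintype.card V + Fintype.card V ≤
      (∑ a, ((cl N (UU C a)).card : ℤ)) + ∑ b, ((mm N C b).card : ℤ) := by
    apply le_count
    · intro a b hb
      refine mem_mm.2 fun x hx => ?_
      by_contra hax
      exact hb (mem_cl.2 ⟨x, mem_UU.2 fun h1 => absurd h1 hax, hx⟩)
    · intro a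
      exact mem_cl.2 ⟨a, mem_UU.2 fun _ => rfl, hN a⟩
    · intro a
      exact mem_mm.2 fun s hs => h.r s hs
  have c2 : (∑ a, ((cl N (mm N (UU C) a)).card : ℤ)) + ∑ b, ((cl N (mm N C b)).card : ℤ) ≤
      (Fintype.card V : ℤ) * Fintype.card V + Fintype.card V := by
    apply count_le
    intro a b hb ha
    exact h.key hN hb ha
  have c3 : (Fintype.card V : ℤ) * Fintype.card V + Fintype.card V ≤
      (∑ a, ((mm N (UU C) a).card : ℤ)) + ∑ b, ((cl N (C b)).card : ℤ) := by
    apply le_count
    · intro a b hb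
      by_contra hab
      apply hb
      exact mem_mm.2 fun x hx => mem_UU.2 fun h1 => absurd (mem_cl.2 ⟨x, h1, hx⟩) hab
    · intro a
      exact mem_mm.2 fun s hs => h.sub s (h.l s hs)
    · intro a
      exact mem_cl.2 ⟨a, h.r a (hN a), hN a⟩
  have c4 : (∑ a, ((UU C a).card : ℤ)) + ∑ b, ((C b).card : ℤ) ≤
      (Fintype.card V : ℤ) * Fintype.card V + Fintype.card V := by
    apply count_le
    intro a b hb ha
    exact mem_UU.1 hb ha
  rw [cost_eq, cost_eq]
  rw [Finset.sum_sub_distrib, Finset.sum_sub_distrib] at hst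
  have e1 : ∑ a, cc N (UU C a) = (∑ a, ((cl N (UU C a)).card : ℤ)) - ∑ a, ((UU C a).card : ℤ) := by
    rw [← Finset.sum_sub_distrib]
    rfl
  have e2 : ∑ a, cc N (mm N (UU C) a) =
      (∑ a, ((cl N (mm N (UU C) a)).card : ℤ)) - ∑ a, ((mm N (UU C) a).card : ℤ) := by
    rw [← Finset.sum_sub_distrib]
    rfl
  linarith

/-- Two commuting layers: there is no reflexive antisymmetric relation with a successor for each
point for which the boundary of every non-closed set drops strictly. -/
theorem no_drop [Nonempty V] {N : V → Finset V} (hN : ∀ a, a ∈ N a)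
    (hA : ∀ a b, b ∈ N a → a ∈ N b → a = b)
    (hout : ∀ a, ∃ b ∈ N a, b ≠ a)
    (hdrop : ∀ X : Finset V, cl N X ≠ X → cc N (cl N X) < cc N X) : False := by
  classical
  have hle : ∀ X : Finset V, cc N (cl N X) ≤ cc N X := by
    intro X
    by_cases hX : cl N X = X
    · rw [hX]
    · exact (hdrop X hX).le
  -- an optimal inner pair
  obtain ⟨⟨X, Y⟩, hXY, hmin⟩ := Finset.exists_min_image
    (univ.filter fun p : (V → Finset V) × (V → Finset V) => Inner N p.1 p.2)
    (fun p => cost N p.1 p.2) ⟨⟨fun a => {a}, fun a => {a}⟩, by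
      refine Finset.mem_filter.2 ⟨Finset.mem_univ _, ?_, ?_, ?_⟩
      · intro a
        simp
      · intro a
        simp
      · intro a b hb ha
        simp only [cl, Finset.singleton_biUnion] at hb ha
        exact hA a b hb ha⟩
  have hI : Inner N X Y := (Finset.mem_filter.1 hXY).2
  -- an optimal outer pair
  obtain ⟨⟨B, C⟩, hBC, hmin'⟩ := Finset.exists_min_image
    (univ.filter fun p : (V → Finset V) × (V → Finset V) => Outer N p.1 p.2)
    (fun p => cost N p.1 p.2)
    ⟨⟨fun a => cl N (X a), fun a => cl N (Y a)⟩, Finset.mem_filter.2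
      ⟨Finset.mem_univ _, hI.shift⟩⟩
  have hO : Outer N B C := (Finset.mem_filter.1 hBC).2
  have h1 := shift_le hN hO fun B' C' h' =>
    hmin' ⟨B', C'⟩ (Finset.mem_filter.2 ⟨Finset.mem_univ _, h'⟩)
  have h2 := hmin ⟨_, _⟩ (Finset.mem_filter.2 ⟨Finset.mem_univ _, hO.inner hN⟩)
  have h3 := hmin' ⟨_, _⟩ (Finset.mem_filter.2 ⟨Finset.mem_univ _, hI.shift⟩)
  simp only at h2 h3
  have h4 : cost N X Y ≤ cost N (fun a => cl N (X a)) (fun a => cl N (Y a)) :=
    (h2.trans h1).trans h3
  -- so all rows are closed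
  have h5 : ∀ a, cl N (X a) = X a ∧ cl N (Y a) = Y a := by
    intro a
    by_contra hcon
    have h6 : cost N (fun a => cl N (X a)) (fun a => cl N (Y a)) < cost N X Y := by
      unfold cost
      refine Finset.sum_lt_sum (fun s _ => add_le_add (hle _) (hle _)) ⟨a, Finset.mem_univ _, ?_⟩
      rw [not_and_or] at hcon
      rcases hcon with h7 | h7
      · exact add_lt_add_of_lt_of_le (hdrop _ h7) (hle _)
      · exact add_lt_add_of_le_of_lt (hle _) (hdrop _ h7)
    linarith
  -- a minimal nonempty closed set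
  obtain ⟨K, hK, hKmin⟩ := Finset.exists_min_image
    (univ.filter fun K : Finset V => K.Nonempty ∧ cl N K = K) Finset.card
    ⟨univ, Finset.mem_filter.2 ⟨Finset.mem_univ _, Finset.univ_nonempty,
      Finset.eq_univ_of_forall fun x => subset_cl hN _ (Finset.mem_univ x)⟩⟩
  obtain ⟨_, ⟨a, ha⟩, hKc⟩ := Finset.mem_filter.1 hK
  obtain ⟨b, hb, hba⟩ := hout a
  have hbK : b ∈ K := by
    rw [← hKc]
    exact mem_cl.2 ⟨a, ha, hb⟩
  have hbX : b ∈ X a := by
    rw [← (h5 a).1]
    exact mem_cl.2 ⟨a, hI.l a, hb⟩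
  have hYK : K ∩ Y b ∈ univ.filter fun K : Finset V => K.Nonempty ∧ cl N K = K := by
    refine Finset.mem_filter.2 ⟨Finset.mem_univ _, ⟨b, Finset.mem_inter.2 ⟨hbK, hI.r b⟩⟩, ?_⟩
    apply Finset.Subset.antisymm _ (subset_cl hN _)
    intro x hx
    obtain ⟨y, hy, hyx⟩ := mem_cl.1 hx
    rw [Finset.mem_inter] at hy ⊢
    constructor
    · rw [← hKc]
      exact mem_cl.2 ⟨y, hy.1, hyx⟩
    · rw [← (h5 b).2]
      exact mem_cl.2 ⟨y, hy.2, hyx⟩
  have h7 := hKmin _ hYK
  have h8 : K ∩ Y b = K := Finset.eq_of_subset_of_card_le Finset.inter_subset_left h7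
  have haY : a ∈ Y b := by
    have : a ∈ K ∩ Y b := by rw [h8]; exact ha
    exact (Finset.mem_inter.1 this).2
  exact hba (hI.o a b (subset_cl hN _ hbX) (subset_cl hN _ haY)).symm

end Vale.Agent.P038.H701
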