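import Vale.Agent.P038.Defs
import Vale.Agent.P038.H701.Full

/-!
# Seymour's second neighbourhood conjecture
-/

namespace Vale.Agent.P038.H701

open Finset

variable {V : Type*} [Fintype V] [DecidableEq V]

/-- The closed out-neighbourhood of a vertex. -/
noncomputable def nb (D : OGraph V) (v : V) : Finset V := insert v (N1 D v)

theorem mem_nb {D : OGraph V} {v x : V} : x ∈ nb D v ↔ x = v ∨ D.arc v x := by
  simp [nb, mem_N1]

/-- A counterexample. -/
def CE (D : OGraph V) : Prop := ∀ v, (N2 D v).card < (N1 D v).card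

/-- The number of arcs. -/
noncomputable def arcs (D : OGraph V) : ℕ := ∑ v, (N1 D v).card

/-- Delete all arcs from `X` to `Z`. -/
def del (D : OGraph V) (X Z : Finset V) : OGraph V where
  arc a b := D.arc a b ∧ ¬ (a ∈ X ∧ b ∈ Z)
  loopless v h := D.loopless v h.1
  asymm _ _ h h' := D.asymm _ _ h.1 h'.1

theorem drop {D : OGraph V} (hD : CE D) (hmin : ∀ D' : OGraph V, CE D' → arcs D ≤ arcs D')
    (X : Finset V) (hX : cl (nb D) X ≠ X) :
    cc (nb D) (cl (nb D) X) < cc (nb D) X := by
  classical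
  by_contra hcon
  push Not at hcon
  have hN : ∀ v, v ∈ nb D v := fun v => mem_nb.2 (Or.inl rfl)
  set L := cl (nb D) X \ X with hL
  have hXc : X ⊆ cl (nb D) X := subset_cl hN X
  have hLne : L.Nonempty := by
    rw [hL, Finset.sdiff_nonempty]
    intro h
    exact hX (Finset.Subset.antisymm h hXc)
  have hLX : Disjoint L X := Finset.sdiff_disjoint
  have hLcard : L.card + X.card = (cl (nb D) X).card := by
    rw [hL]
    exact Finset.card_sdiff_add_card_eq_card hXc
  set d : Finset V → ℤ := fun T => ((cl (nb D) T \ X).card : ℤ) - 2 * T.card with hd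
  have hdL : 0 ≤ d L := by
    have e1 : cl (nb D) L \ X = (cl (nb D) (cl (nb D) X) \ cl (nb D) X) ∪ L := by
      ext z
      constructor
      · intro hz
        obtain ⟨hz1, hz2⟩ := Finset.mem_sdiff.1 hz
        by_cases hzL : z ∈ L
        · exact Finset.mem_union_right _ hzL
        · refine Finset.mem_union_left _ (Finset.mem_sdiff.2 ⟨?_, ?_⟩)
          · exact cl_mono Finset.sdiff_subset hz1
          · intro h
            exact hzL (Finset.mem_sdiff.2 ⟨h, hz2⟩)
      · intro hz
        rcases Finset.mem_union.1 hz with h | h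
        · obtain ⟨h1, h2⟩ := Finset.mem_sdiff.1 h
          refine Finset.mem_sdiff.2 ⟨?_, fun h3 => h2 (hXc h3)⟩
          obtain ⟨y, hy, hyz⟩ := mem_cl.1 h1
          by_cases hyX : y ∈ X
          · exact absurd (mem_cl.2 ⟨y, hyX, hyz⟩) h2
          · exact mem_cl.2 ⟨y, Finset.mem_sdiff.2 ⟨hy, hyX⟩, hyz⟩
        · exact Finset.mem_sdiff.2 ⟨subset_cl hN _ h, Finset.disjoint_left.1 hLX h⟩
    have e2 : Disjoint (cl (nb D) (cl (nb D) X) \ cl (nb D) X) L := by
      rw [Finset.disjoint_left]
      intro z hz hz'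
      exact (Finset.mem_sdiff.1 hz).2 (Finset.mem_sdiff.1 hz').1
    have e3 := Finset.card_sdiff_add_card_eq_card (subset_cl hN (cl (nb D) X))
    simp only [hd]
    rw [e1, Finset.card_union_of_disjoint e2]
    unfold cc at hcon
    push_cast
    omega
  have hd0 : d ∅ = 0 := by
    simp [hd, cl]
  -- a proper minimiser
  obtain ⟨T, hTL, hTne, hTmin⟩ : ∃ T ⊆ L, T ≠ L ∧ ∀ S ⊆ L, d T ≤ d S := by
    obtain ⟨T0, hT0, hT0min⟩ := Finset.exists_min_image L.powerset d
      ⟨∅, Finset.empty_mem_powerset _⟩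
    by_cases h : T0 = L
    · refine ⟨∅, Finset.empty_subset _, hLne.ne_empty.symm, fun S hS => ?_⟩
      rw [hd0]
      have := hT0min S (Finset.mem_powerset.2 hS)
      rw [h] at this
      linarith
    · exact ⟨T0, Finset.mem_powerset.1 hT0, h, fun S hS =>
        hT0min S (Finset.mem_powerset.2 hS)⟩
  set Z := L \ T with hZ
  set D' := del D X Z with hD'
  have hN1le : ∀ y, N1 D' y ⊆ N1 D y := by
    intro y z hz
    exact mem_N1.2 (mem_N1.1 hz).1
  have hCE : CE D' := by
    intro y
    by_cases hy : y ∈ X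
    · set Dy := N1 D y ∩ Z with hDy
      set Ey := cl (nb D) Dy \ (cl (nb D) T ∪ X) with hEy
      have hN1 : N1 D' y = N1 D y \ Dy := by
        ext z
        rw [mem_N1, Finset.mem_sdiff, hDy, Finset.mem_inter, mem_N1]
        constructor
        · rintro ⟨h1, h2⟩
          exact ⟨h1, fun h3 => h2 ⟨hy, h3.2⟩⟩
        · rintro ⟨h1, h2⟩
          exact ⟨h1, fun h3 => h2 ⟨h1, h3.2⟩⟩
      have hEsub : Ey ⊆ N2 D y ∪ Dy := by
        intro z hz
        obtain ⟨hz1, hz2⟩ := Finset.mem_sdiff.1 hz
        have hzX : z ∉ X := fun h3 => hz2 (Finset.mem_union_right _ h3)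
        have hzT : z ∉ cl (nb D) T := fun h3 => hz2 (Finset.mem_union_left _ h3)
        obtain ⟨c, hc, hcz⟩ := mem_cl.1 hz1
        have hyc : D.arc y c := mem_N1.1 (Finset.mem_inter.1 hc).1
        rcases mem_nb.1 hcz with rfl | hcz
        · exact Finset.mem_union_right _ hc
        · by_cases hyz : D.arc y z
          · refine Finset.mem_union_right _ (Finset.mem_inter.2 ⟨mem_N1.2 hyz, ?_⟩)
            refine Finset.mem_sdiff.2 ⟨?_, ?_⟩
            · rw [hL]
              exact Finset.mem_sdiff.2 ⟨mem_cl.2 ⟨y, hy, mem_nb.2 (Or.inr hyz)⟩, hzX⟩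
            · intro h3
              exact hzT (subset_cl hN _ h3)
          · refine Finset.mem_union_left _ (mem_N2.2 ⟨?_, hyz, c, hyc, hcz⟩)
            rintro rfl
            exact hzX hy
      have hN2 : N2 D' y ⊆ (N2 D y ∪ Dy) \ Ey := by
        intro z hz
        rw [mem_N2] at hz
        obtain ⟨hzy, hnz, c, hyc, hcz⟩ := hz
        refine Finset.mem_sdiff.2 ⟨?_, ?_⟩
        · by_cases hyz : D.arc y z
          · refine Finset.mem_union_right _ (Finset.mem_inter.2 ⟨mem_N1.2 hyz, ?_⟩)
            by_contra hzZ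
            exact hnz ⟨hyz, fun h3 => hzZ h3.2⟩
          · exact Finset.mem_union_left _ (mem_N2.2 ⟨hzy, hyz, c, hyc.1, hcz.1⟩)
        · intro hzE
          obtain ⟨_, hz2⟩ := Finset.mem_sdiff.1 hzE
          have hzX : z ∉ X := fun h3 => hz2 (Finset.mem_union_right _ h3)
          have hzT : z ∉ cl (nb D) T := fun h3 => hz2 (Finset.mem_union_left _ h3)
          by_cases hcX : c ∈ X
          · have hzL : z ∈ L := by
              rw [hL]
              exact Finset.mem_sdiff.2 ⟨mem_cl.2 ⟨c, hcX, mem_nb.2 (Or.inr hcz.1)⟩, hzX⟩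
            have hzZ : z ∈ Z := Finset.mem_sdiff.2 ⟨hzL, fun h3 => hzT (subset_cl hN _ h3)⟩
            exact hcz.2 ⟨hcX, hzZ⟩
          · have hcL : c ∈ L := by
              rw [hL]
              exact Finset.mem_sdiff.2 ⟨mem_cl.2 ⟨y, hy, mem_nb.2 (Or.inr hyc.1)⟩, hcX⟩
            have hcT : c ∈ T := by
              by_contra hcT
              exact hyc.2 ⟨hy, Finset.mem_sdiff.2 ⟨hcL, hcT⟩⟩
            exact hzT (mem_cl.2 ⟨c, hcT, mem_nb.2 (Or.inr hcz.1)⟩)
      have c1 := Finset.card_le_card hN2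
      have c2 := Finset.card_sdiff_add_card_eq_card hEsub
      have c3 := Finset.card_union_le (N2 D y) Dy
      have c4 : (N1 D y \ Dy).card + Dy.card = (N1 D y).card :=
        Finset.card_sdiff_add_card_eq_card Finset.inter_subset_left
      have c5 : 2 * Dy.card ≤ Ey.card := by
        have hDyL : T ∪ Dy ⊆ L :=
          Finset.union_subset hTL (Finset.inter_subset_right.trans Finset.sdiff_subset)
        have h1 := hTmin _ hDyL
        have h2 : Disjoint T Dy := by
          rw [Finset.disjoint_left]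
          intro z hz hz'
          exact (Finset.mem_sdiff.1 (Finset.mem_inter.1 hz').2).2 hz
        have h3 : cl (nb D) (T ∪ Dy) \ X = (cl (nb D) T \ X) ∪ Ey := by
          ext z
          simp only [hEy, Finset.mem_sdiff, Finset.mem_union, mem_cl]
          constructor
          · rintro ⟨⟨c, hc | hc, hcz⟩, hzX⟩
            · exact Or.inl ⟨⟨c, hc, hcz⟩, hzX⟩
            · by_cases h : ∃ y ∈ T, z ∈ nb D y
              · exact Or.inl ⟨h, hzX⟩
              · exact Or.inr ⟨⟨c, hc, hcz⟩, fun h' => h'.elim h hzX⟩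
          · rintro (⟨⟨c, hc, hcz⟩, hzX⟩ | ⟨⟨c, hc, hcz⟩, h⟩)
            · exact ⟨⟨c, Or.inl hc, hcz⟩, hzX⟩
            · exact ⟨⟨c, Or.inr hc, hcz⟩, fun h' => h (Or.inr h')⟩
        have h4 : Disjoint (cl (nb D) T \ X) Ey := by
          rw [Finset.disjoint_left]
          intro z hz hz'
          exact (Finset.mem_sdiff.1 hz').2 (Finset.mem_union_left _ (Finset.mem_sdiff.1 hz).1)
        simp only [hd] at h1
        rw [h3, Finset.card_union_of_disjoint h4, Finset.card_union_of_disjoint h2] at h1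
        push_cast at h1
        omega
      have c6 := hD y
      rw [hN1]
      omega
    · have hN1 : N1 D' y = N1 D y := by
        ext z
        rw [mem_N1, mem_N1]
        exact ⟨fun h => h.1, fun h => ⟨h, fun h' => hy h'.1⟩⟩
      have hN2 : N2 D' y ⊆ N2 D y := by
        intro z hz
        rw [mem_N2] at hz ⊢
        obtain ⟨h1, h2, c, h3, h4⟩ := hz
        exact ⟨h1, fun h => h2 ⟨h, fun h' => hy h'.1⟩, c, h3.1, h4.1⟩
      rw [hN1]
      exact (Finset.card_le_card hN2).trans_lt (hD y)
  have h1 := hmin D' hCE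
  have h2 : arcs D' < arcs D := by
    have hZne : Z.Nonempty := by
      rw [hZ, Finset.sdiff_nonempty]
      intro h
      exact hTne (Finset.Subset.antisymm hTL h)
    obtain ⟨z, hz⟩ := hZne
    have hzL : z ∈ L := (Finset.mem_sdiff.1 hz).1
    obtain ⟨hz1, hz2⟩ := Finset.mem_sdiff.1 hzL
    obtain ⟨y, hy, hyz⟩ := mem_cl.1 hz1
    have hyz' : D.arc y z := by
      rcases mem_nb.1 hyz with rfl | h
      · exact absurd hy hz2
      · exact h
    unfold arcs
    refine Finset.sum_lt_sum (fun v _ => Finset.card_le_card (hN1le v)) ⟨y, Finset.mem_univ _, ?_⟩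
    apply Finset.card_lt_card
    refine Finset.ssubset_iff_subset_ne.2 ⟨hN1le y, fun h => ?_⟩
    have h3 : z ∈ N1 D' y := by rw [h]; exact mem_N1.2 hyz'
    exact (mem_N1.1 h3).2 ⟨hy, hz⟩
  omega

/-- **Seymour's second neighbourhood conjecture.** Every nonempty finite oriented graph has a
vertex whose second out-neighbourhood is at least as large as its out-neighbourhood. -/
theorem seymour [Nonempty V] (D : OGraph V) : ∃ v, (N1 D v).card ≤ (N2 D v).card := by
  classical
  by_contra hcon
  push Not at hcon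
  obtain ⟨E, hE, hmin⟩ := WellFounded.has_min (measure (arcs (V := V))).wf {D | CE D} ⟨D, hcon⟩
  have hmin' : ∀ D' : OGraph V, CE D' → arcs E ≤ arcs D' := fun D' h =>
    not_lt.1 (hmin D' h)
  refine no_drop (N := nb E) (fun v => mem_nb.2 (Or.inl rfl)) ?_ ?_ (drop hE hmin')
  · intro a b hb ha
    rcases mem_nb.1 hb with rfl | hb
    · rfl
    · rcases mem_nb.1 ha with rfl | ha
      · rfl
      · exact absurd ha (E.asymm _ _ hb)
  · intro a
    have h1 : 0 < (N1 E a).card := (Nat.zero_le _).trans_lt (hE a)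
    obtain ⟨b, hb⟩ := Finset.card_pos.1 h1
    rw [mem_N1] at hb
    refine ⟨b, mem_nb.2 (Or.inr hb), ?_⟩
    rintro rfl
    exact E.loopless _ hb

end Vale.Agent.P038.H701


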