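import Mathlib

/-!
# A telescoping inequality for two layers of sets (P038)
-/

namespace Vale.Agent.P038.H701

open Finset

variable {V : Type*} [Fintype V] [DecidableEq V]

/-- Closed out-neighbourhood of a set. -/
def cl (N : V → Finset V) (S : Finset V) : Finset V := S.biUnion N

/-- The size of the outer boundary. -/
def cc (N : V → Finset V) (S : Finset V) : ℤ := ((cl N S).card : ℤ) - S.card

theorem mem_cl {N : V → Finset V} {S : Finset V} {x : V} :
    x ∈ cl N S ↔ ∃ y ∈ S, x ∈ N y := by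
  simp [cl]

theorem cc_submod (N : V → Finset V) (S T : Finset V) :
    cc N (S ∪ T) + cc N (S ∩ T) ≤ cc N S + cc N T := by
  unfold cc cl
  have h1 := Finset.card_union_add_card_inter (S.biUnion N) (T.biUnion N)
  have h2 := Finset.card_union_add_card_inter S T
  have h3 : ((S ∩ T).biUnion N).card ≤ (S.biUnion N ∩ T.biUnion N).card := by
    apply Finset.card_le_card
    intro x hx
    simp only [Finset.mem_biUnion, Finset.mem_inter] at hx ⊢
    obtain ⟨y, ⟨h, h'⟩, h''⟩ := hx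
    exact ⟨⟨y, h, h''⟩, ⟨y, h', h''⟩⟩
  have h4 : (S ∪ T).biUnion N = S.biUnion N ∪ T.biUnion N := by
    ext x
    simp only [Finset.mem_biUnion, Finset.mem_union]
    constructor
    · rintro ⟨y, h | h, h'⟩
      · exact Or.inl ⟨y, h, h'⟩
      · exact Or.inr ⟨y, h, h'⟩
    · rintro (⟨y, h, h'⟩ | ⟨y, h, h'⟩)
      · exact ⟨y, Or.inl h, h'⟩
      · exact ⟨y, Or.inr h, h'⟩
  rw [h4]
  omega

/-- The admissible sets. -/
def adm (f : V → ℕ) (P Q : Finset V) (i : ℕ) : Finset (Finset V) :=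
  univ.filter fun Y => P ⊆ Y ∧ (∀ v ∈ Q, f v < i → v ∈ Y) ∧ Y ⊆ Q

/-- The minimum of the boundary over the admissible sets. -/
noncomputable def kk (N : V → Finset V) (f : V → ℕ) (P Q : Finset V) (i : ℕ) : ℤ :=
  if h : (adm f P Q i).Nonempty then (adm f P Q i).inf' h (cc N) else 0

theorem mem_adm {f : V → ℕ} {P Q : Finset V} {i : ℕ} {Y : Finset V} :
    Y ∈ adm f P Q i ↔ P ⊆ Y ∧ (∀ v ∈ Q, f v < i → v ∈ Y) ∧ Y ⊆ Q := by
  simp [adm]

theorem kk_le {N : V → Finset V} {f : V → ℕ} {P Q : Finset V} {i : ℕ} {Y : Finset V}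
    (h : Y ∈ adm f P Q i) : kk N f P Q i ≤ cc N Y := by
  unfold kk
  rw [dif_pos ⟨Y, h⟩]
  exact Finset.inf'_le _ h

theorem kk_ex (N : V → Finset V) (f : V → ℕ) {P Q : Finset V} (h : P ⊆ Q) (i : ℕ) :
    ∃ Y ∈ adm f P Q i, kk N f P Q i = cc N Y := by
  have hne : (adm f P Q i).Nonempty := ⟨Q, mem_adm.2 ⟨h, fun v hv _ => hv, le_rfl⟩⟩
  unfold kk
  rw [dif_pos hne]
  exact Finset.exists_mem_eq_inf' hne _

theorem kk_mono (N : V → Finset V) (f : V → ℕ) {P Q : Finset V} (h : P ⊆ Q) (i : ℕ) :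
    kk N f P Q i ≤ kk N f P Q (i + 1) := by
  obtain ⟨Y, hY, e⟩ := kk_ex N f h (i + 1)
  rw [e]
  rw [mem_adm] at hY
  exact kk_le (mem_adm.2 ⟨hY.1, fun v hv hi => hY.2.1 v hv (by omega), hY.2.2⟩)

theorem kk_top (N : V → Finset V) (f : V → ℕ) {P Q : Finset V} (h : P ⊆ Q) (n : ℕ)
    (hn : ∀ v, f v < n) : kk N f P Q n = cc N Q := by
  obtain ⟨Y, hY, e⟩ := kk_ex N f h n
  rw [mem_adm] at hY
  rw [e, Finset.Subset.antisymm hY.2.2 fun v hv => hY.2.1 v hv (hn v)]

theorem kk_zero (N : V → Finset V) (f : V → ℕ) {P Q : Finset V} (h : P ⊆ Q)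
    (hmin : ∀ Y, P ⊆ Y → Y ⊆ Q → cc N P ≤ cc N Y) : kk N f P Q 0 = cc N P := by
  apply le_antisymm
  · exact kk_le (mem_adm.2 ⟨le_rfl, fun v _ hv => absurd hv (Nat.not_lt_zero _), h⟩)
  · obtain ⟨Y, hY, e⟩ := kk_ex N f h 0
    rw [mem_adm] at hY
    rw [e]
    exact hmin Y hY.1 hY.2.2

theorem kk_same (N : V → Finset V) (f : V → ℕ) (hf : Function.Injective f) {P Q : Finset V}
    (h : P ⊆ Q) (b : V) (hb : ¬ (b ∈ Q ∧ b ∉ P)) :
    kk N f P Q (f b + 1) = kk N f P Q (f b) := by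
  apply le_antisymm
  · obtain ⟨Y, hY, e⟩ := kk_ex N f h (f b)
    rw [mem_adm] at hY
    rw [e]
    refine kk_le (mem_adm.2 ⟨hY.1, ?_, hY.2.2⟩)
    intro v hv hi
    rcases Nat.lt_succ_iff_lt_or_eq.1 hi with h1 | h1
    · exact hY.2.1 v hv h1
    · have : v = b := hf h1
      subst this
      by_contra hvY
      exact hb ⟨hv, fun h2 => hvY (hY.1 h2)⟩
  · exact kk_mono N f h _

/-- The mixed inequality. -/
theorem kk_mix (N : V → Finset V) (f : V → ℕ) (hf : Function.Injective f) {P Q p q : Finset V}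
    (h : P ⊆ Q) (h' : p ⊆ q) (hp : p ⊆ P) (hq : q ⊆ Q) (b : V) (hb : b ∈ q) :
    kk N f P Q (f b + 1) - kk N f P Q (f b) ≤ kk N f p q (f b + 1) - kk N f p q (f b) := by
  obtain ⟨Y, hY, e⟩ := kk_ex N f h' (f b + 1)
  obtain ⟨Z, hZ, e'⟩ := kk_ex N f h (f b)
  rw [mem_adm] at hY hZ
  have h1 : kk N f P Q (f b + 1) ≤ cc N (Y ∪ Z) := by
    refine kk_le (mem_adm.2 ⟨hZ.1.trans Finset.subset_union_right, ?_,
      Finset.union_subset (hY.2.2.trans hq) hZ.2.2⟩)
    intro v hv hi
    rcases Nat.lt_succ_iff_lt_or_eq.1 hi with h1 | h1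
    · exact Finset.mem_union_right _ (hZ.2.1 v hv h1)
    · have : v = b := hf h1
      subst this
      exact Finset.mem_union_left _ (hY.2.1 v hb (Nat.lt_succ_self _))
  have h2 : kk N f p q (f b) ≤ cc N (Y ∩ Z) := by
    refine kk_le (mem_adm.2 ⟨Finset.subset_inter hY.1 (hp.trans hZ.1), ?_,
      Finset.inter_subset_left.trans hY.2.2⟩)
    intro v hv hi
    exact Finset.mem_inter.2 ⟨hY.2.1 v hv (by omega), hZ.2.1 v (hq hv) hi⟩
  have h3 := cc_submod N Y Z
  rw [e, e']
  linarith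

/-- The intersection of the sets of a family over the closed in-neighbourhood. -/
def mm (N : V → Finset V) (R : V → Finset V) (z : V) : Finset V :=
  univ.filter fun x => ∀ a, z ∈ N a → x ∈ R a

theorem mem_mm {N : V → Finset V} {R : V → Finset V} {z x : V} :
    x ∈ mm N R z ↔ ∀ a, z ∈ N a → x ∈ R a := by
  simp [mm]

theorem mm_min (N : V → Finset V) (B U : V → Finset V)
    (hBU : ∀ a, B a ⊆ U a)
    (hR : ∀ a Y, B a ⊆ Y → Y ⊆ U a → cc N (B a) ≤ cc N Y) (z : V) (Y : Finset V)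
    (h1 : mm N B z ⊆ Y) (h2 : Y ⊆ mm N U z) : cc N (mm N B z) ≤ cc N Y := by
  -- intersect with the sets `B a` one at a time
  have key : ∀ s : Finset V, (∀ a ∈ s, z ∈ N a) →
      cc N (Y.filter fun x => ∀ a ∈ s, x ∈ B a) ≤ cc N Y := by
    intro s
    induction s using Finset.induction_on with
    | empty =>
      intro _
      simp
    | insert a s _ ih =>
      intro hs
      have ih' := ih fun a' ha' => hs a' (Finset.mem_insert_of_mem ha')
      set T := Y.filter fun x => ∀ a ∈ s, x ∈ B a with hT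
      have e : (Y.filter fun x => ∀ a' ∈ insert a s, x ∈ B a') = T ∩ B a := by
        ext x
        simp only [hT, Finset.mem_filter, Finset.mem_inter, Finset.mem_insert, forall_eq_or_imp]
        tauto
      rw [e]
      have h3 := cc_submod N T (B a)
      have h4 : cc N (B a) ≤ cc N (T ∪ B a) := by
        refine hR a _ Finset.subset_union_right (Finset.union_subset ?_ ?_)
        · intro x hx
          exact mem_mm.1 (h2 (Finset.mem_filter.1 hx).1) a (hs a (Finset.mem_insert_self _ _))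
        · exact hBU a
      linarith
  have h := key (univ.filter fun a => z ∈ N a) (by simp)
  have e : (Y.filter fun x => ∀ a ∈ univ.filter (fun a => z ∈ N a), x ∈ B a) = mm N B z := by
    ext x
    simp only [Finset.mem_filter, Finset.mem_univ, true_and, mem_mm]
    exact ⟨fun h => h.2, fun h => ⟨h1 (mem_mm.2 h), h⟩⟩
  rwa [e] at h

theorem telescope (g : ℕ → ℤ) :
    ∑ b : V, (g (Fintype.equivFin V b + 1) - g (Fintype.equivFin V b)) =
      g (Fintype.card V) - g 0 := by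
  rw [Equiv.sum_comp (Fintype.equivFin V) fun i : Fin (Fintype.card V) => g (i + 1) - g i]
  rw [Fin.sum_univ_eq_sum_range (fun i => g (i + 1) - g i)]
  exact Finset.sum_range_sub g _

/-- The inequality of the two layers. -/
theorem star (N : V → Finset V) (B U : V → Finset V)
    (hBU : ∀ a, B a ⊆ U a)
    (hR : ∀ a Y, B a ⊆ Y → Y ⊆ U a → cc N (B a) ≤ cc N Y)
    (hC : ∀ b (S : Finset V), (∀ a ∈ S, b ∈ U a ∧ b ∉ B a) →
      S.card ≤ (univ.filter fun z => b ∈ mm N U z ∧ ∃ a ∈ S, z ∈ N a).card) :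
    ∑ a, (cc N (U a) - cc N (B a)) ≤ ∑ z, (cc N (mm N U z) - cc N (mm N B z)) := by
  classical
  set f : V → ℕ := fun v => (Fintype.equivFin V v : ℕ) with hf
  have hfi : Function.Injective f := fun a b h => (Fintype.equivFin V).injective (Fin.ext h)
  have hfn : ∀ v, f v < Fintype.card V := fun v => (Fintype.equivFin V v).2
  have hmm : ∀ z, mm N B z ⊆ mm N U z := fun z x hx =>
    mem_mm.2 fun a ha => hBU a (mem_mm.1 hx a ha)
  have e1 : ∀ a, cc N (U a) - cc N (B a) =
      ∑ b, (kk N f (B a) (U a) (f b + 1) - kk N f (B a) (U a) (f b)) := by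
    intro a
    rw [telescope (fun i => kk N f (B a) (U a) i), kk_top N f (hBU a) _ hfn,
      kk_zero N f (hBU a) (hR a)]
  have e2 : ∀ z, cc N (mm N U z) - cc N (mm N B z) =
      ∑ b, (kk N f (mm N B z) (mm N U z) (f b + 1) - kk N f (mm N B z) (mm N U z) (f b)) := by
    intro z
    rw [telescope (fun i => kk N f (mm N B z) (mm N U z) i), kk_top N f (hmm z) _ hfn,
      kk_zero N f (hmm z) (mm_min N B U hBU hR z)]
  simp only [e1, e2]
  rw [Finset.sum_comm, Finset.sum_comm (s := univ) (t := univ) (f := fun z b =>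
    kk N f (mm N B z) (mm N U z) (f b + 1) - kk N f (mm N B z) (mm N U z) (f b))]
  apply Finset.sum_le_sum
  intro b _
  -- Hall's theorem in column `b`
  obtain ⟨g, hg, hg'⟩ := (Finset.all_card_le_biUnion_card_iff_exists_injective
    (fun a : {a // b ∈ U a ∧ b ∉ B a} => univ.filter fun z => b ∈ mm N U z ∧ z ∈ N a.1)).1 (by
      intro s
      have h := hC b (s.map (Function.Embedding.subtype _)) (by
        intro a ha
        rw [Finset.mem_map] at ha
        obtain ⟨a', _, rfl⟩ := ha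
        exact a'.2)
      rw [Finset.card_map] at h
      refine h.trans (Finset.card_le_card ?_)
      intro z hz
      rw [Finset.mem_filter] at hz
      obtain ⟨_, hz1, a, ha, hz2⟩ := hz
      rw [Finset.mem_map] at ha
      obtain ⟨a', ha', rfl⟩ := ha
      rw [Finset.mem_biUnion]
      exact ⟨a', ha', Finset.mem_filter.2 ⟨Finset.mem_univ _, hz1, hz2⟩⟩)
  have h1 : ∑ a, (kk N f (B a) (U a) (f b + 1) - kk N f (B a) (U a) (f b)) =
      ∑ a : {a // b ∈ U a ∧ b ∉ B a},
        (kk N f (B a.1) (U a.1) (f b + 1) - kk N f (B a.1) (U a.1) (f b)) := by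
    rw [← Finset.sum_subtype (univ.filter fun a => b ∈ U a ∧ b ∉ B a) (by simp)
      (fun a => kk N f (B a) (U a) (f b + 1) - kk N f (B a) (U a) (f b))]
    rw [Finset.sum_filter]
    apply Finset.sum_congr rfl
    intro a _
    split_ifs with h
    · rfl
    · rw [kk_same N f hfi (hBU a) b h]
      ring
  rw [h1]
  have h2 : ∑ a : {a // b ∈ U a ∧ b ∉ B a},
        (kk N f (B a.1) (U a.1) (f b + 1) - kk N f (B a.1) (U a.1) (f b)) ≤
      ∑ a : {a // b ∈ U a ∧ b ∉ B a},
        (kk N f (mm N B (g a)) (mm N U (g a)) (f b + 1) -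
          kk N f (mm N B (g a)) (mm N U (g a)) (f b)) := by
    apply Finset.sum_le_sum
    intro a _
    have h3 := hg' a
    rw [Finset.mem_filter] at h3
    exact kk_mix N f hfi (hBU a.1) (hmm (g a)) (fun x hx => mem_mm.1 hx _ h3.2.2)
      (fun x hx => mem_mm.1 hx _ h3.2.2) b h3.2.1
  refine h2.trans ?_
  have h4 : ∑ a : {a // b ∈ U a ∧ b ∉ B a},
        (kk N f (mm N B (g a)) (mm N U (g a)) (f b + 1) -
          kk N f (mm N B (g a)) (mm N U (g a)) (f b)) =
      ∑ z ∈ univ.map ⟨g, hg⟩, (kk N f (mm N B z) (mm N U z) (f b + 1) -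
          kk N f (mm N B z) (mm N U z) (f b)) := by
    rw [Finset.sum_map]
    rfl
  rw [h4]
  apply Finset.sum_le_sum_of_subset_of_nonneg (Finset.subset_univ _)
  intro z _ _
  have := kk_mono N f (hmm z) (f b)
  linarith

end Vale.Agent.P038.H701
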